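import Vale.Agent.P281.H180.TM.ESpec

/-!
# P281, project T-M, block T0: E6 (compactness)
-/

open Set Filter Metric Vale.Agent.P281 Vale.Agent.P281.H713 Vale.Agent.P281.H64
open Vale.Agent.P281.H303.Gen (pnt SmEq NsStmt DirStmt)
open Vale.Agent.P281.H64.Gen (IsSmallSet IsAnalyticSet)
open Vale.Agent.P281.H150.Gen (pr lst SThin)
open Vale.Agent.P281.H180.TM
open scoped Topology ContDiff Manifold

noncomputable section

namespace Vale.Agent.P281.H968.TM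

/-- Near a value, the points of a compact set over it are in a neighbourhood of the fibre. -/
lemma tube {X Y : Type} [TopologicalSpace X] [T2Space X] [TopologicalSpace Y] [T2Space Y]
    {K O : Set X} {f : X → Y} (hK : IsCompact K) (hf : ∀ x ∈ K, ContinuousAt f x) (hO : IsOpen O)
    {b₀ : Y} (h : ∀ x ∈ K, f x = b₀ → x ∈ O) : ∀ᶠ b in 𝓝 b₀, ∀ x ∈ K, f x = b → x ∈ O := by
  have h1 : IsCompact (K \ O) := hK.diff hO
  have h2 : IsCompact (f '' (K \ O)) :=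
    h1.image_of_continuousOn fun x hx => (hf x hx.1).continuousWithinAt
  have h3 : b₀ ∉ f '' (K \ O) := by
    rintro ⟨x, hx, hxb⟩
    exact hx.2 (h x hx.1 hxb)
  filter_upwards [h2.isClosed.isOpen_compl.mem_nhds h3] with b hb x hx hxb
  by_contra hxO
  exact hb ⟨x, ⟨hx, hxO⟩, hxb⟩

theorem fin (h3 : GraphStmt) (h5 : LocStmt) : FinStmt := by
  intro q X _ _ _ _ _ D U K B f t S hL hV hK hB hc hKB
  refine ⟨?_, ?_⟩
  · intro b₀ hb₀ hS
    classical
    -- the germs at the points of the fibre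
    have h6 : ∀ x : {x // x ∈ K ∧ f x = b₀}, ∃ T : Finset (Cm q → ℂ),
        (∀ τ ∈ T, AnalyticAt ℂ τ b₀ ∧ ∀ᶠ b in 𝓝 b₀, ∃ z, z ∈ D ∧ z ∈ U ∧ f z = b ∧ t z = τ b) ∧
        ∀ᶠ z in 𝓝 x.1, z ∈ D → ∃ τ ∈ T, t z = τ (f z) := by
      rintro ⟨x, hxK, hxb⟩
      have h7 := (hKB x).1 ⟨hxK, by rw [hxb]; exact hb₀⟩
      have h8 := h5 q X D U f t S hL hV x h7.2 h7.1 (by rw [hxb]; exact hS)
      rw [hxb] at h8
      exact h8
    choose T hT hTn using h6
    have h9 : ∀ x : {x // x ∈ K ∧ f x = b₀}, ∃ O : Set X, IsOpen O ∧ x.1 ∈ O ∧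
        ∀ z ∈ O, z ∈ D → ∃ τ ∈ T x, t z = τ (f z) := by
      intro x
      obtain ⟨O, hO, hOo, hxO⟩ := eventually_nhds_iff.1 (hTn x)
      exact ⟨O, hOo, hxO, hO⟩
    choose O hOo hOx hOt using h9
    -- the fibre is compact
    have h10 : IsCompact {x | x ∈ K ∧ f x = b₀} := by
      have h11 : ContinuousOn f K := fun x hx => (hc x hx).1.continuousWithinAt
      have h12 := h11.preimage_isClosed_of_isClosed hK.isClosed (isClosed_singleton (x := b₀))
      exact hK.of_isClosed_subset h12 inter_subset_left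
    obtain ⟨F, hF⟩ := h10.elim_finite_subcover O hOo (by
      intro x hx
      exact mem_iUnion.2 ⟨⟨x, hx⟩, hOx ⟨x, hx⟩⟩)
    refine ⟨F.biUnion T, ?_, ?_⟩
    · intro τ hτ
      obtain ⟨x, _, hx⟩ := Finset.mem_biUnion.1 hτ
      exact (hT x τ hx).1
    · have h13 : IsOpen (⋃ x ∈ F, O x) := isOpen_biUnion fun x _ => hOo x
      have h14 := tube hK (fun x hx => (hc x hx).1) h13 (b₀ := b₀)
        (fun x hx hxb => hF ⟨hx, hxb⟩)
      have h15 : ∀ᶠ b in 𝓝 b₀, ∀ τ ∈ F.biUnion T, ∃ z, z ∈ D ∧ z ∈ U ∧ f z = b ∧ t z = τ b := by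
        rw [Filter.eventually_all_finset]
        intro τ hτ
        obtain ⟨x, _, hx⟩ := Finset.mem_biUnion.1 hτ
        exact (hT x τ hx).2
      filter_upwards [h14, h15, hB.mem_nhds hb₀] with b h16 h17 h18 s
      constructor
      · rintro ⟨x, hxK, hxb, hxs⟩
        obtain ⟨y, hy, hxy⟩ := mem_iUnion₂.1 (h16 x hxK hxb)
        have h19 := (hKB x).1 ⟨hxK, by rw [hxb]; exact h18⟩
        obtain ⟨τ, hτ, h20⟩ := hOt y x hxy h19.1
        refine ⟨τ, Finset.mem_biUnion.2 ⟨y, hy, hτ⟩, ?_⟩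
        rw [← hxs, h20, hxb]
      · rintro ⟨τ, hτ, rfl⟩
        obtain ⟨z, hzD, hzU, hzb, hzt⟩ := h17 τ hτ
        exact ⟨z, ((hKB z).2 ⟨hzD, hzU⟩).1, hzb, hzt⟩
  · intro x hxU hxD N hN
    have h6 := hL.dense x hxU hxD
    rw [mem_closure_iff_nhds] at h6
    obtain ⟨z, hz, hzG⟩ := h6 (interior N ∩ U)
      (inter_mem (interior_mem_nhds.2 hN) (hL.opn.mem_nhds hxU))
    obtain ⟨τ, s, _, _, hs, hsD⟩ := h3 q X D U f t hL z hz.2 hzG
    have h7 : ∀ᶠ b in 𝓝 (f z), s b ∈ interior N :=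
      hs.eventually (isOpen_interior.mem_nhds hz.1)
    refine ⟨f z, mem_interior_iff_mem_nhds.2 ?_⟩
    filter_upwards [h7, hsD] with b h8 h9
    exact ⟨s b, ⟨h9.1, interior_subset h8⟩, h9.2⟩

end Vale.Agent.P281.H968.TM
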